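import Vale.Agent.Lib.P160.helper4.SSDefs

/-!
# P160, pool piece SS-2b (backup copy by helper74)

The explicit sums `outF`, `inF` of the lazy chain on subsets of `Fin n`:
`inF - outF = (card S - n / 2) / n` (summation by parts), `outF ≤ n`, `desc / 2 ≤ outF`.
-/

namespace Vale.Agent.Lib.P160.H74

open Finset Vale.Agent.Lib.P160.H4

/-- Indicator of `S` as a real function on `ℕ` (zero from `n` on). -/
noncomputable def ind (n : ℕ) (S : Finset (Fin n)) (i : ℕ) : ℝ :=
  if h : i < n then (if (⟨i, h⟩ : Fin n) ∈ S then 1 else 0) else 0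

theorem ind_val (n : ℕ) (S : Finset (Fin n)) (k : Fin n) :
    ind n S k.val = if k ∈ S then 1 else 0 := by
  simp [ind, k.isLt]

theorem ind_mk (n : ℕ) (S : Finset (Fin n)) (i : ℕ) (h : i < n) :
    ind n S i = if (⟨i, h⟩ : Fin n) ∈ S then 1 else 0 := by
  simp [ind, h]

theorem ind_ge (n : ℕ) (S : Finset (Fin n)) (i : ℕ) (h : ¬ i < n) : ind n S i = 0 := by
  simp [ind, h]

theorem ind_nonneg (n : ℕ) (S : Finset (Fin n)) (i : ℕ) : 0 ≤ ind n S i := by
  unfold ind
  split_ifs <;> norm_num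

theorem ind_le_one (n : ℕ) (S : Finset (Fin n)) (i : ℕ) : ind n S i ≤ 1 := by
  unfold ind
  split_ifs <;> norm_num

theorem in_inner (n : ℕ) (S : Finset (Fin n)) (k : Fin n) :
    (∑ j : Fin n, if j.val = k.val + 1 ∧ k ∉ S ∧ j ∈ S then 1 - (j.val : ℝ) / n else 0)
      = (1 - ((k.val : ℝ) + 1) / n) * ((1 - ind n S k.val) * ind n S (k.val + 1)) := by
  by_cases h : k.val + 1 < n
  · rw [Finset.sum_eq_single (⟨k.val + 1, h⟩ : Fin n)]
    · rw [ind_val, ind_mk n S (k.val + 1) h]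
      by_cases a : k ∈ S <;> by_cases b : (⟨k.val + 1, h⟩ : Fin n) ∈ S <;> simp [a, b]
    · intro j _ hj
      rw [if_neg]
      rintro ⟨e, -⟩
      exact hj (Fin.ext e)
    · intro hh
      exact absurd (Finset.mem_univ _) hh
  · rw [ind_ge n S (k.val + 1) h]
    simp only [mul_zero]
    apply Finset.sum_eq_zero
    intro j _
    rw [if_neg]
    rintro ⟨e, -⟩
    exact h (e ▸ j.isLt)

theorem out_inner (n : ℕ) (S : Finset (Fin n)) (k : Fin n) :
    (∑ j : Fin n, if j.val = k.val + 1 ∧ k ∈ S ∧ j ∉ S then 1 - (j.val : ℝ) / n else 0)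
      = (1 - ((k.val : ℝ) + 1) / n) * (ind n S k.val * (1 - ind n S (k.val + 1))) := by
  by_cases h : k.val + 1 < n
  · rw [Finset.sum_eq_single (⟨k.val + 1, h⟩ : Fin n)]
    · rw [ind_val, ind_mk n S (k.val + 1) h]
      by_cases a : k ∈ S <;> by_cases b : (⟨k.val + 1, h⟩ : Fin n) ∈ S <;> simp [a, b]
    · intro j _ hj
      rw [if_neg]
      rintro ⟨e, -⟩
      exact hj (Fin.ext e)
    · intro hh
      exact absurd (Finset.mem_univ _) hh
  · have e : k.val + 1 = n := by have := k.isLt; omega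
    have e' : ((k.val : ℝ) + 1) = (n : ℝ) := by exact_mod_cast e
    have hn0 : (n : ℝ) ≠ 0 := by
      have : 0 < n := by omega
      exact_mod_cast this.ne'
    rw [e', div_self hn0, sub_self, zero_mul]
    apply Finset.sum_eq_zero
    intro j _
    rw [if_neg]
    rintro ⟨e2, -⟩
    exact h (e2 ▸ j.isLt)

theorem in_entry (n : ℕ) (hn : 1 ≤ n) (S : Finset (Fin n)) :
    (∑ j : Fin n, if j.val = 0 ∧ j ∈ S then (1 / 2 : ℝ) else 0) = 1 / 2 * ind n S 0 := by
  have hn' : 0 < n := hn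
  rw [Finset.sum_eq_single (⟨0, hn'⟩ : Fin n)]
  · rw [ind_mk n S 0 hn']
    by_cases b : (⟨0, hn'⟩ : Fin n) ∈ S <;> simp [b]
  · intro j _ hj
    rw [if_neg]
    rintro ⟨e, -⟩
    exact hj (Fin.ext e)
  · intro hh
    exact absurd (Finset.mem_univ _) hh

theorem out_entry (n : ℕ) (hn : 1 ≤ n) (S : Finset (Fin n)) :
    (∑ j : Fin n, if j.val = 0 ∧ j ∉ S then (1 / 2 : ℝ) else 0) = 1 / 2 * (1 - ind n S 0) := by
  have hn' : 0 < n := hn
  rw [Finset.sum_eq_single (⟨0, hn'⟩ : Fin n)]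
  · rw [ind_mk n S 0 hn']
    by_cases b : (⟨0, hn'⟩ : Fin n) ∈ S <;> simp [b]
  · intro j _ hj
    rw [if_neg]
    rintro ⟨e, -⟩
    exact hj (Fin.ext e)
  · intro hh
    exact absurd (Finset.mem_univ _) hh

theorem inF_eq (n : ℕ) (hn : 1 ≤ n) (S : Finset (Fin n)) :
    inF n S = ∑ k ∈ range n, (1 - ((k : ℝ) + 1) / n) * ((1 - ind n S k) * ind n S (k + 1))
      + 1 / 2 * ind n S 0 := by
  unfold inF
  rw [in_entry n hn S,
    ← Fin.sum_univ_eq_sum_range
      (fun k => (1 - ((k : ℝ) + 1) / n) * ((1 - ind n S k) * ind n S (k + 1))) n]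
  congr 1
  exact Finset.sum_congr rfl (fun k _ => in_inner n S k)

theorem outF_eq (n : ℕ) (hn : 1 ≤ n) (S : Finset (Fin n)) :
    outF n S = ∑ k ∈ range n, (1 - ((k : ℝ) + 1) / n) * (ind n S k * (1 - ind n S (k + 1)))
      + 1 / 2 * (1 - ind n S 0) := by
  unfold outF
  rw [out_entry n hn S,
    ← Fin.sum_univ_eq_sum_range
      (fun k => (1 - ((k : ℝ) + 1) / n) * (ind n S k * (1 - ind n S (k + 1)))) n]
  congr 1
  exact Finset.sum_congr rfl (fun k _ => out_inner n S k)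

/-- Summation by parts. -/
theorem sbp (N : ℝ) (s : ℕ → ℝ) (m : ℕ) :
    ∑ k ∈ range m, (1 - ((k : ℝ) + 1) / N) * (s (k + 1) - s k)
      = (1 - (m : ℝ) / N) * s m + (1 / N) * ∑ j ∈ range m, s j - s 0 := by
  induction m with
  | zero => simp
  | succ m ih =>
    rw [Finset.sum_range_succ, ih, Finset.sum_range_succ]
    push_cast
    ring

theorem sum_ind (n : ℕ) (S : Finset (Fin n)) : ∑ j ∈ range n, ind n S j = (S.card : ℝ) := by
  rw [← Fin.sum_univ_eq_sum_range (ind n S) n]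
  have : ∀ k : Fin n, ind n S k.val = if k ∈ S then (1 : ℝ) else 0 := fun k => ind_val n S k
  rw [Finset.sum_congr rfl (fun k _ => this k)]
  simp

theorem inF_sub_outF (n : ℕ) (hn : 1 ≤ n) (S : Finset (Fin n)) :
    inF n S - outF n S = ((S.card : ℝ) - n / 2) / n := by
  have hn0 : (n : ℝ) ≠ 0 := by
    have : 0 < n := hn
    exact_mod_cast this.ne'
  rw [inF_eq n hn S, outF_eq n hn S]
  have key : ∑ k ∈ range n, (1 - ((k : ℝ) + 1) / n) * ((1 - ind n S k) * ind n S (k + 1))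
      - ∑ k ∈ range n, (1 - ((k : ℝ) + 1) / n) * (ind n S k * (1 - ind n S (k + 1)))
      = ∑ k ∈ range n, (1 - ((k : ℝ) + 1) / n) * (ind n S (k + 1) - ind n S k) := by
    rw [← Finset.sum_sub_distrib]
    apply Finset.sum_congr rfl
    intro k _
    ring
  have h2 := sbp (n : ℝ) (ind n S) n
  rw [sum_ind, ind_ge n S n (lt_irrefl n)] at h2
  have : ∑ k ∈ range n, (1 - ((k : ℝ) + 1) / n) * ((1 - ind n S k) * ind n S (k + 1))
      = ∑ k ∈ range n, (1 - ((k : ℝ) + 1) / n) * (ind n S k * (1 - ind n S (k + 1)))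
        + ((1 - (n : ℝ) / n) * 0 + (1 / (n : ℝ)) * (S.card : ℝ) - ind n S 0) := by
    rw [← h2, ← key]
    ring
  rw [this]
  field_simp
  ring

theorem outF_le (n : ℕ) (S : Finset (Fin n)) : outF n S ≤ n := by
  rcases Nat.eq_zero_or_pos n with h0 | hpos
  · subst h0
    simp [outF]
  · have hn : 1 ≤ n := hpos
    have hn0 : (0 : ℝ) < n := by exact_mod_cast hpos
    rw [outF_eq n hn S]
    have h1 : ∑ k ∈ range n, (1 - ((k : ℝ) + 1) / n) * (ind n S k * (1 - ind n S (k + 1)))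
        ≤ ∑ _k ∈ range n, (1 - 1 / (n : ℝ)) := by
      apply Finset.sum_le_sum
      intro k hk
      have hk' : k < n := Finset.mem_range.1 hk
      have a0 := ind_nonneg n S k
      have a1 := ind_le_one n S k
      have b0 := ind_nonneg n S (k + 1)
      have b1 := ind_le_one n S (k + 1)
      have hw0 : 0 ≤ 1 - ((k : ℝ) + 1) / n := by
        rw [sub_nonneg, div_le_one hn0]
        have : k + 1 ≤ n := hk'
        exact_mod_cast this
      have hw1 : 1 - ((k : ℝ) + 1) / n ≤ 1 - 1 / (n : ℝ) := by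
        have : (1 : ℝ) / n ≤ ((k : ℝ) + 1) / n := by
          apply div_le_div_of_nonneg_right _ hn0.le
          have : (0 : ℝ) ≤ k := Nat.cast_nonneg k
          linarith
        linarith
      have hp0 : 0 ≤ ind n S k * (1 - ind n S (k + 1)) := mul_nonneg a0 (by linarith)
      have hp1 : ind n S k * (1 - ind n S (k + 1)) ≤ 1 := by nlinarith
      calc (1 - ((k : ℝ) + 1) / n) * (ind n S k * (1 - ind n S (k + 1)))
          ≤ (1 - ((k : ℝ) + 1) / n) * 1 := mul_le_mul_of_nonneg_left hp1 hw0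
        _ ≤ 1 - 1 / (n : ℝ) := by linarith
    have h2 : ∑ _k ∈ range n, (1 - 1 / (n : ℝ)) = (n : ℝ) - 1 := by
      rw [Finset.sum_const, Finset.card_range, nsmul_eq_mul]
      field_simp
    have h3 : (1 : ℝ) / 2 * (1 - ind n S 0) ≤ 1 / 2 := by
      have := ind_nonneg n S 0
      linarith
    linarith

theorem outF_ge (n : ℕ) (S : Finset (Fin n)) : (desc n S : ℝ) / 2 ≤ outF n S := by
  have hd : (desc n S : ℝ) / 2 = ∑ k : Fin n,
      if (2 * (k.val + 1) ≤ n ∧ k ∈ S ∧ ∀ j : Fin n, j.val = k.val + 1 → j ∉ S)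
        then (1 / 2 : ℝ) else 0 := by
    unfold desc
    rw [Finset.card_filter]
    push_cast
    rw [Finset.sum_div]
    apply Finset.sum_congr rfl
    intro k _
    split_ifs <;> norm_num
  have hterm : ∀ (k j : Fin n),
      0 ≤ (if j.val = k.val + 1 ∧ k ∈ S ∧ j ∉ S then 1 - (j.val : ℝ) / n else 0) := by
    intro k j
    split_ifs
    · have hn0 : (0 : ℝ) < n := by
        have : 0 < n := lt_of_le_of_lt (Nat.zero_le _) j.isLt
        exact_mod_cast this
      rw [sub_nonneg, div_le_one hn0]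
      exact_mod_cast j.isLt.le
    · exact le_rfl
  have hentry : 0 ≤ ∑ j : Fin n, if j.val = 0 ∧ j ∉ S then (1 / 2 : ℝ) else 0 := by
    apply Finset.sum_nonneg
    intro j _
    split_ifs <;> norm_num
  rw [hd]
  unfold outF
  have hmain : (∑ k : Fin n,
      if (2 * (k.val + 1) ≤ n ∧ k ∈ S ∧ ∀ j : Fin n, j.val = k.val + 1 → j ∉ S)
        then (1 / 2 : ℝ) else 0)
      ≤ ∑ k : Fin n, ∑ j : Fin n,
        if j.val = k.val + 1 ∧ k ∈ S ∧ j ∉ S then 1 - (j.val : ℝ) / n else 0 := by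
    apply Finset.sum_le_sum
    intro k _
    split_ifs with hc
    · obtain ⟨h2, hkS, hj⟩ := hc
      have hlt : k.val + 1 < n := by have := k.isLt; omega
      have hjS : (⟨k.val + 1, hlt⟩ : Fin n) ∉ S := hj ⟨k.val + 1, hlt⟩ rfl
      have hsingle := Finset.single_le_sum (f := fun j : Fin n =>
          if j.val = k.val + 1 ∧ k ∈ S ∧ j ∉ S then 1 - (j.val : ℝ) / n else 0)
        (fun j _ => hterm k j) (Finset.mem_univ (⟨k.val + 1, hlt⟩ : Fin n))
      refine le_trans ?_ hsingle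
      have hcond : ((⟨k.val + 1, hlt⟩ : Fin n).val = k.val + 1 ∧ k ∈ S ∧
          (⟨k.val + 1, hlt⟩ : Fin n) ∉ S) := ⟨rfl, hkS, hjS⟩
      show (1 / 2 : ℝ) ≤ if ((⟨k.val + 1, hlt⟩ : Fin n).val = k.val + 1 ∧ k ∈ S ∧
          (⟨k.val + 1, hlt⟩ : Fin n) ∉ S) then 1 - (((⟨k.val + 1, hlt⟩ : Fin n).val : ℝ)) / n else 0
      rw [if_pos hcond]
      show (1 / 2 : ℝ) ≤ 1 - (((k.val + 1 : ℕ) : ℝ)) / n
      have hn0 : (0 : ℝ) < n := by
        have : 0 < n := by omega
        exact_mod_cast this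
      have : (((k.val + 1 : ℕ) : ℝ)) / n ≤ 1 / 2 := by
        rw [div_le_iff₀ hn0]
        have : (2 * (k.val + 1) : ℕ) ≤ n := h2
        have h3 : ((2 * (k.val + 1) : ℕ) : ℝ) ≤ (n : ℝ) := by exact_mod_cast this
        push_cast at h3 ⊢
        linarith
      linarith
    · exact Finset.sum_nonneg (fun j _ => hterm k j)
  linarith

end Vale.Agent.Lib.P160.H74
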